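import Vale.Agent.P165.Final2

namespace Vale.Agent.Results.P165.L2Bound

open Vale.Agent.P165

theorem result {V : Type*} [Infinite V] (G : SimpleGraph V) [G.LocallyFinite]
    (hc : G.Connected) (hq : QuasiTransitive G) (hn : 0 < hV G) :
    pc G < p22 G ∧ p22 G ≤ pu G :=
  final_l2 G hc hq hn

end Vale.Agent.Results.P165.L2Bound
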