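import Vale.Agent.P165.Core
import Vale.Agent.P165.Final

namespace Vale.Agent.Results.P165.Nonuniqueness

open Vale.Agent.P165

theorem result {V : Type*} [Infinite V] (G : SimpleGraph V) [G.LocallyFinite]
    (hc : G.Connected) (hq : QuasiTransitive G) (hn : 0 < hV G) : pc G < pu G :=
  final_of_core G (core _ _) hc hq hn

end Vale.Agent.Results.P165.Nonuniqueness
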